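import Vale.Agent.P237.Quant.TailData.N53.tailN53N1Part0
import Vale.Agent.P237.Quant.TailData.N53.tailN53N1Part1
import Vale.Agent.P237.Quant.TailData.N53.tailN53N1Part2
import Vale.Agent.P237.Quant.TailData.N53.tailN53N1Part3
import Vale.Agent.P237.Quant.TailData.N53.tailN53N1Part4

/-!
Tail calibration tailN53N1 in dimension 53. The check. Generated data, checked by the kernel.
-/

set_option maxRecDepth 100000
set_option linter.all false

namespace Vale.Agent.P237.Quant.TailData

open TailCert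


/-- The calibration. -/
noncomputable def tailN53N1 : Cfg :=
  tailN53N1Base.withIvals (List.flatten [tailN53N1L0, tailN53N1L1, tailN53N1L2, tailN53N1L3, tailN53N1L4, tailN53N1L5, tailN53N1L6, tailN53N1L7, tailN53N1L8, tailN53N1L9, tailN53N1L10, tailN53N1L11, tailN53N1L12, tailN53N1L13, tailN53N1L14, tailN53N1L15, tailN53N1L16, tailN53N1L17, tailN53N1L18])

theorem tailN53N1_parts : [tailN53N1L0, tailN53N1L1, tailN53N1L2, tailN53N1L3, tailN53N1L4, tailN53N1L5, tailN53N1L6, tailN53N1L7, tailN53N1L8, tailN53N1L9, tailN53N1L10, tailN53N1L11, tailN53N1L12, tailN53N1L13, tailN53N1L14, tailN53N1L15, tailN53N1L16, tailN53N1L17, tailN53N1L18].Forall fun l => tailN53N1Base.partUsed tailN53N1Used l = true := by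
  simp only [List.forall_cons, List.Forall]
  exact ⟨tailN53N1L0_ok, tailN53N1L1_ok, tailN53N1L2_ok, tailN53N1L3_ok, tailN53N1L4_ok, tailN53N1L5_ok, tailN53N1L6_ok, tailN53N1L7_ok, tailN53N1L8_ok, tailN53N1L9_ok, tailN53N1L10_ok, tailN53N1L11_ok, tailN53N1L12_ok, tailN53N1L13_ok, tailN53N1L14_ok, tailN53N1L15_ok, tailN53N1L16_ok, tailN53N1L17_ok, tailN53N1L18_ok⟩

theorem tailN53N1_check : tailN53N1.check = true :=
  Cfg.check_of_parts (by decide +kernel) tailN53N1_parts

end Vale.Agent.P237.Quant.TailData
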